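import Crest.Agent.X262.Ends.Rees
import Crest.Agent.X262.Bnd.Defs

-- ▼ part X262/Live3/Zmt
section

/-!
# Row 262, LIVE (helper3): a valuative form of Zariski's main theorem
-/

set_option autoImplicit false

noncomputable section

namespace Crest.Agent.X262.Live3

open Polynomial

/-- `O` is a normal local ring dominated by `V`; if `t` is residually algebraic at every valuation
ring which dominates `O` and contains `t`, then `t` lies in `O` -/
theorem zmt {O K : Type*} [CommRing O] [Field K] [Algebra O K] (V : ValuationSubring K)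
    (hle : ∀ x : O, algebraMap O K x ∈ V)
    (hinv : ∀ x : O, V.valuation (algebraMap O K x) = 1 → IsUnit x)
    (hn : ∀ x : K, IsIntegral O x → x ∈ (algebraMap O K).range) {ι : Type*} [Finite ι]
    {t : ι → K} (ht : ∀ i, t i ∈ V)
    (h : ∀ W : ValuationSubring K, (∀ x : O, algebraMap O K x ∈ W) →
      (∀ x : O, V.valuation (algebraMap O K x) < 1 → W.valuation (algebraMap O K x) < 1) →
      (∀ i, t i ∈ W) → ∀ i, ∃ p : O[X], p.Monic ∧ W.valuation (aeval (t i) p) < 1) (i : ι) :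
    t i ∈ (algebraMap O K).range := by
  let B := Algebra.adjoin O (Set.range t)
  have hB : ∀ x ∈ B, x ∈ V := fun x hx => by
    induction hx using Algebra.adjoin_induction with
    | mem x hx => exact hx.choose_spec ▸ ht _
    | algebraMap c => exact hle c
    | add _ _ _ _ h h' => exact add_mem h h'
    | mul _ _ _ _ h h' => exact mul_mem h h'
  have : Algebra.FiniteType O B := Algebra.FiniteType.adjoin_of_finite (Set.finite_range t)
  let φ : B →+* V := B.val.toRingHom.codRestrict V fun x => hB x x.2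
  let q : Ideal B := (IsLocalRing.maximalIdeal V).comap φ
  have hq : ∀ x : B, x ∈ q ↔ V.valuation x < 1 := fun x => V.valuation_lt_one_iff (φ x)
  let I : Ideal B := (q.under O).map (algebraMap O B)
  let τ : ι → B := fun i => ⟨t i, Algebra.subset_adjoin ⟨i, rfl⟩⟩
  have h1 : ∀ i, IsIntegral O (Ideal.Quotient.mk I (τ i)) := fun i => by
    by_contra hc
    let S : Submonoid B :=
      { carrier := {x | ∃ p : O[X], p.Monic ∧ aeval (τ i) p = x}
        one_mem' := ⟨1, monic_one, map_one _⟩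
        mul_mem' := by
          rintro _ _ ⟨p, hp, rfl⟩ ⟨p', hp', rfl⟩
          exact ⟨p * p', hp.mul hp', map_mul _ _ _⟩ }
    obtain ⟨P, _, h2, h3⟩ := I.exists_le_prime_disjoint S (Set.disjoint_left.2 (by
      rintro _ h2 ⟨p, hp, rfl⟩
      refine hc ⟨p, hp, ?_⟩
      rw [← aeval_def, ← Ideal.Quotient.mkₐ_eq_mk O, aeval_algHom_apply]
      exact Ideal.Quotient.eq_zero_iff_mem.2 h2))
    obtain ⟨W, h4, h5⟩ := Ends.exists_centre B.val.toRingHom P fun x hx => by
      rw [show x = 0 from Subtype.ext hx]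
      exact zero_mem _
    obtain ⟨p, hp, h6⟩ := h W (fun x => h4 (algebraMap O B x)) (fun x hx =>
      (h5 (algebraMap O B x)).2 (h2 (Ideal.mem_map_of_mem _ ((hq _).2 hx)))) (fun j => h4 (τ j)) i
    refine Set.disjoint_left.1 h3 ((h5 (aeval (τ i) p)).1 ?_) ⟨p, hp, rfl⟩
    rwa [show B.val.toRingHom (aeval (τ i) p) = aeval (t i) p from
      (aeval_algHom_apply B.val (τ i) p).symm]
  have : Algebra.IsIntegral O (B ⧸ I) := ⟨fun x => by
    obtain ⟨⟨x, hx⟩, rfl⟩ := Ideal.Quotient.mk_surjective x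
    induction hx using Algebra.adjoin_induction with
    | mem x hx =>
      obtain ⟨i, rfl⟩ := hx
      exact h1 i
    | algebraMap c => exact isIntegral_algebraMap (A := B ⧸ I) (x := c)
    | add x y hx hy h h' => exact h.add h'
    | mul x y hx hy h h' => exact h.mul h'⟩
  have : Module.Finite O (B ⧸ I) := Algebra.IsIntegral.finite
  obtain ⟨r, h2, h3, h4⟩ := Algebra.zariskisMainProperty_iff.1
    (Algebra.ZariskisMainProperty.of_finiteType_of_weaklyQuasiFiniteAt (R := O) q)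
  obtain ⟨m, h5⟩ := h4 (τ i)
  obtain ⟨a, ha⟩ := hn r (h3.map B.val)
  obtain ⟨c, hc⟩ := hn _ (h5.map B.val)
  obtain ⟨u, rfl⟩ := hinv a (ha ▸ le_antisymm (V.valuation_le_one_iff _ |>.2 (hB _ r.2))
    (not_lt.1 (mt (hq r).2 h2)))
  refine ⟨(u⁻¹ ^ m : Oˣ) * c, ?_⟩
  rw [map_mul, hc, map_mul, map_pow]
  change _ * ((r : K) ^ m * t i) = _
  rw [← ha, ← map_pow, ← mul_assoc, ← map_mul, ← Units.val_pow_eq_pow_val, ← Units.val_mul,
    ← mul_pow, inv_mul_cancel, one_pow, Units.val_one, map_one, one_mul]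

end Crest.Agent.X262.Live3
end
end

-- ▼ part X262/Live3/Main

/-!
# Row 262, LIVE (helper3): residues of local rings of models, Zariski's main theorem

* `exists_r_eq`   : the field of the centre consists of the residues of the local ring;
* `loc_eq_of_dom` : a valuation which dominates `loc H V` has the same local ring;
* `mem_cl_iff_adj`, `dim_adj` : the residual matroid and fields of residues;
* `loc_le_of_alg` : Zariski's main theorem; `liveStmt`.
-/

set_option autoImplicit false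
set_option linter.unusedSectionVars false

noncomputable section

namespace Crest.Agent.X262.Live3

open Crest.Agent.X277 Crest.Agent.X277.BD Crest.Agent.X277.Pst Crest.Agent.X277.Neg
  Crest.Agent.X262.Mod Crest.Agent.X277.BD.Cyc Crest.Agent.R276.DivVal_858 Polynomial
  IntermediateField Set

variable {k K : Type} [Field k] [Field K] [Algebra k K] {H a : BD k K} {V W : RZ k K} {x : K}
  {S : Set K}

theorem exists_r_eq {z : Rf V} (hz : z ∈ adjoin k ((plV V).r '' loc H V)) :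
    ∃ x ∈ loc H V, (plV V).r x = z := by
  induction hz using IntermediateField.adjoin_induction with
  | mem z hz => exact hz
  | algebraMap c => exact ⟨_, algebraMap_mem _ c, lnr_plV V c⟩
  | add _ _ _ _ h h' =>
    obtain ⟨x, h1, rfl⟩ := h
    obtain ⟨y, h2, rfl⟩ := h'
    exact ⟨x + y, add_mem h1 h2, Pl.r_add (mem_of_loc h1) (mem_of_loc h2)⟩
  | mul _ _ _ _ h h' =>
    obtain ⟨x, h1, rfl⟩ := h
    obtain ⟨y, h2, rfl⟩ := h'
    exact ⟨x * y, mul_mem h1 h2, Pl.r_mul (mem_of_loc h1) (mem_of_loc h2)⟩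
  | inv _ _ h =>
    obtain ⟨x, h1, rfl⟩ := h
    by_cases h2 : (plV V).r x = 0
    · exact ⟨0, zero_mem _, by rw [h2, inv_zero, Pl.r_zero]⟩
    · exact ⟨x⁻¹, inv_mem_loc h1 (Pl.r_ne_zero_iff.1 h2), Pl.r_inv x⟩

theorem loc_eq_of_dom (hH : H.Free) (h1 : ∀ x ∈ loc H V, x ∈ W.1)
    (h2 : ∀ x ∈ loc H V, V.v x < 1 → W.v x < 1) : loc H W = loc H V := by
  have h3 := gz_of_loc hH h1
  refine le_antisymm (Gz.loc_le fun m g h4 h5 => ?_) h3.loc_le
  obtain ⟨g₀, h6, h7⟩ := (hH.nsmul m).exists_gen V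
  have h8 := div_mem_loc h4 h6 h7
  have h9 : ¬ V.v (g / g₀) < 1 := fun h => (h2 _ h8 h).ne (by
    rw [map_div₀, h5, h3 m g₀ h6 h7, div_self (val_ne _ _)])
  rw [map_div₀, h7, div_lt_one₀ (val_pos _ _), not_lt] at h9
  exact le_antisymm (h4 V) h9

theorem v_eq_one_of_loc (h : loc H W = loc H V) (hx : x ∈ loc H V) (h1 : V.v x = 1) :
    W.v x = 1 := by
  have h2 := RZ.le_one_iff.2 (mem_of_loc (h ▸ inv_mem_loc hx h1 : x⁻¹ ∈ loc H W))
  rw [map_inv₀, inv_le_one₀ (RZ.pos (RZ.ne_zero_iff.1 (h1 ▸ one_ne_zero)))] at h2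
  exact le_antisymm (RZ.le_one_iff.2 (mem_of_loc (h ▸ hx : x ∈ loc H W))) h2

theorem resInd_of_loc (h : loc H W = loc H V) {ι : Type*} {y : ι → K} (hy : ∀ i, y i ∈ loc H V)
    (h1 : ResInd k V.1 y) : ResInd k W.1 y :=
  ⟨fun i => mem_of_loc (h ▸ hy i : y i ∈ loc H W), fun p hp => v_eq_one_of_loc h
    (Algebra.adjoin_le (range_subset_iff.2 hy) (Algebra.adjoin_range_eq_range_aeval k y ▸ ⟨p, rfl⟩))
    (h1.2 p hp)⟩

theorem mem_cl_iff_alg : x ∈ (rm V).closure S ↔
    IsAlgebraic (Algebra.adjoin k ((plV V).r '' S)) ((plV V).r x) := by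
  have key : ∀ i j : Algebra k (Rf V), i = j → ∀ (T : Set (Rf V)) (z : Rf V),
      (letI := i; IsAlgebraic (Algebra.adjoin k T) z) ↔
        (letI := j; IsAlgebraic (Algebra.adjoin k T) z) := by
    rintro _ _ rfl _ _
    rfl
  exact mem_cl_iff.trans (key _ _ (Algebra.algebra_ext _ _ fun _ => rfl) _ _)

theorem mem_cl_iff_adj : x ∈ (rm V).closure S ↔
    IsAlgebraic (adjoin k ((plV V).r '' S)) ((plV V).r x) :=
  mem_cl_iff_alg.trans isAlgebraic_adjoin_iff.symm

/-- a residually algebraic element satisfies a monic equation over the local ring -/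
theorem exists_monic (hx : x ∈ V.1) (h : x ∈ (rm V).closure (loc H V)) :
    ∃ p : (loc H V)[X], p.Monic ∧ V.v (aeval x p) < 1 := by
  obtain ⟨q, hq, h1⟩ := (mem_cl_iff_adj.1 h).isIntegral
  let j : loc H V →+* V.1 := (algebraMap (loc H V) K).codRestrict V.1 fun y => mem_of_loc y.2
  let φ : loc H V →+* adjoin k ((plV V).r '' loc H V) := ((plV V).φ.comp j).codRestrict _ fun y =>
    subset_adjoin _ _ ⟨y, y.2, (plV V).r_coe (j y)⟩
  have h2 : Function.Surjective φ := fun z => by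
    obtain ⟨y, hy, h2⟩ := exists_r_eq z.2
    exact ⟨⟨y, hy⟩, Subtype.ext (((plV V).r_coe (j ⟨y, hy⟩)).symm.trans h2)⟩
  obtain ⟨p, rfl, -, hp⟩ := lifts_and_degree_eq_and_monic (map_surjective φ h2 q) hq
  refine ⟨p, hp, ?_⟩
  have h3 : aeval x p = (p.eval₂ j ⟨x, hx⟩ : V.1) :=
    (hom_eval₂ p j V.1.subtype ⟨x, hx⟩).symm
  rw [h3]
  refine ((plV V).ker _).1 ((hom_eval₂ p j (plV V).φ ⟨x, hx⟩).trans ?_)
  rw [← h1, eval₂_map, (plV V).r_eq hx]
  rfl

variable [CharZero k] [Algebra.EssFiniteType k K]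

/-- a transcendence basis of a field of residues -/
theorem exists_tb (V : RZ k K) (S : Set K) : ∃ (q : ℕ) (y : Fin q → K), (∀ i, y i ∈ S) ∧
    ResInd k V.1 y ∧ (rm V).eRk S = q ∧ dim k (adjoin k ((plV V).r '' S)) = q := by
  obtain ⟨q, hq⟩ := ENat.ne_top_iff_exists.1 (rk_ne_top V S)
  obtain ⟨y, h1, h2⟩ := le_rk_iff.1 hq.le
  refine ⟨q, y, h1, h2, hq.symm, ?_⟩
  have h3 := (Geo.resInd_iff (lnr_plV V) h2.1).1 h2
  have h4 : ∀ s ∈ S, s ∈ (rm V).closure (range y) := fun s hs => by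
    by_contra hc
    have h4 := (rm V).eRk_mono (insert_subset hs (range_subset_iff.2 h1))
    rw [Matroid.eRk_insert_eq_add_one ⟨mem_univ s, hc⟩, ← hq] at h4
    have h5 := (add_le_add_left (le_rk_iff.2 ⟨y, mem_range_self, h2⟩) 1).trans h4
    norm_cast at h5
    omega
  have h5 : adjoin k ((plV V).r '' S) ≤
      (algebraicClosure (adjoin k ((plV V).r '' range y)) (Rf V)).restrictScalars k :=
    adjoin_le_iff.2 (by
      rintro _ ⟨s, hs, rfl⟩
      exact mem_algebraicClosure_iff.2 (mem_cl_iff_adj.1 (h4 s hs)))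
  let z : Fin q → adjoin k ((plV V).r '' S) := fun i => ⟨_, subset_adjoin _ _ ⟨y i, h1 i, rfl⟩⟩
  have h6 : AlgebraicIndependent k z := AlgebraicIndependent.of_comp (IntermediateField.val _) h3
  have h7 := h6.isTranscendenceBasis_iff_isAlgebraic.2 ⟨fun w => by
    by_contra hc
    have h7 := ((h6.option_iff_transcendental w).2 hc).map' (f := IntermediateField.val _)
      Subtype.val_injective
    rw [show (IntermediateField.val _) ∘ (fun o : Option (Fin q) => o.elim w z) =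
      fun o => o.elim (w : Rf V) fun i => (plV V).r (y i) from funext fun o => by cases o <;> rfl,
      h3.option_iff_transcendental, ← IntermediateField.transcendental_adjoin_iff] at h7
    exact h7 (range_comp' (plV V).r y ▸ mem_algebraicClosure_iff.1 (h5 w.2))⟩
  exact (Jet.card_tb h7).symm.trans (Fintype.card_fin q)

theorem dim_adj (V : RZ k K) (S : Set K) :
    (dim k (adjoin k ((plV V).r '' S)) : ℕ∞) = (rm V).eRk S := by
  obtain ⟨q, -, -, -, h1, h2⟩ := exists_tb V S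
  rw [h1, h2]

theorem rk_le_of_loc (h : loc H W = loc H V) : (rm V).eRk (loc H V) ≤ (rm W).eRk (loc H W) :=
  le_of_nat fun _ h1 => by
    obtain ⟨y, h2, h3⟩ := le_rk_iff.1 h1
    exact le_rk_iff.2 ⟨y, fun i => h ▸ h2 i, resInd_of_loc h h2 h3⟩

theorem rk_eq_of_loc (h : loc H W = loc H V) : (rm W).eRk (loc H W) = (rm V).eRk (loc H V) :=
  le_antisymm (rk_le_of_loc h.symm) (rk_le_of_loc h)

omit [CharZero k] [Algebra.EssFiniteType k K] in
/-- one section generates `a` at all valuation rings which contain `loc H V` -/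
theorem loc_le_of_gen {s : K} (hs : s ≠ 0)
    (h : ∀ W : RZ k K, (∀ x ∈ loc H V, x ∈ W.1) → W.v s = a.val W) : loc a V ≤ loc H V := by
  have key : ∀ (m : ℕ), ∀ g ∈ (m • a).Sec, g / s ^ m ∈ loc H V := fun m g hg => by
    refine mem_loc_of_int (R := loc H V) (fun r => r.2) (Cns.isIntegral_of_val fun W hW => ?_)
    have h1 := hg ⟨W, Cns.KV.of_le hW⟩
    rw [val_nsmul, ← h _ hW, ← map_pow] at h1
    exact (Cns.div_mem_iff_val (pow_ne_zero m hs)).2 h1
  rintro x ⟨m, g, h1, h2, h3⟩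
  have h4 := mul_mem (key m _ h3) (inv_mem_loc (key m g h1) (by
    rw [map_div₀, h2, val_nsmul, map_pow, h V fun _ => mem_of_loc, div_self
      (pow_ne_zero _ (val_ne _ _))]))
  have h5 := ne_of_val h2
  rwa [show x * g / s ^ m * (g / s ^ m)⁻¹ = x by field_simp] at h4

omit [CharZero k] [Algebra.EssFiniteType k K] in
/-- **Zariski's main theorem** -/
theorem loc_le_of_alg (hH : H.Free) (ha : a.Free) (h : ∀ W, loc H W = loc H V →
    ∀ x ∈ loc a W, x ∈ (rm W).closure (loc H W)) : loc a V ≤ loc H V := by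
  obtain ⟨r, s, h0, h1, h2⟩ := ha.exists_fam
  obtain ⟨i, hi⟩ := h2 V
  have e : ∀ (W : RZ k K) j, s j / s i ∈ W.1 ↔ W.v (s j) ≤ W.v (s i) := fun W j =>
    Cns.div_mem_iff_val (h0 i)
  have e' : ∀ W : RZ k K, (∀ j, s j / s i ∈ W.1) → W.v (s i) = a.val W := fun W hW => by
    obtain ⟨j, hj⟩ := h2 W
    exact le_antisymm (h1 i W) (hj ▸ (e W j).1 (hW j))
  have key := zmt (O := loc H V) V.1 (fun x => mem_of_loc x.2) (fun x hx =>
      IsUnit.of_mul_eq_one ⟨_, inv_mem_loc x.2 hx⟩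
        (Subtype.ext (mul_inv_cancel₀ (RZ.ne_zero_iff.1 (hx ▸ one_ne_zero)))))
    (fun x hx => ⟨⟨x, mem_loc_of_int (fun r => r.2) hx⟩, rfl⟩) (t := fun j => s j / s i)
    (fun j => (e V j).2 (hi ▸ h1 j V)) fun W h3 h4 h5 j => by
      let W' : RZ k K := ⟨W, fun c => h3 (algebraMap k _ c)⟩
      have h6 : loc H W' = loc H V :=
        loc_eq_of_dom hH (fun x hx => h3 ⟨x, hx⟩) fun x hx => h4 ⟨x, hx⟩
      have h7 := exists_monic (h5 j) (h W' h6 _ (div_mem_loc (m := 1) (by simpa using h1 j)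
        (by simpa using h1 i) (by simpa using e' W' h5)))
      rwa [h6] at h7
  refine loc_le_of_gen (h0 i) fun W hW => e' W fun j => ?_
  obtain ⟨y, hy⟩ := key j
  exact hy ▸ hW _ y.2

/-- codimension two: only divisors have to be tested -/
theorem loc_le_of_dvs (hH : IsMod H) (ha : a.Free)
    (hd : (Gj.dm k K : ℕ∞) ≤ (rm V).eRk (loc H V) + 2) (h : ∀ W, Dvs W → loc H W = loc H V →
    ∀ x ∈ loc a W, x ∈ (rm W).closure (loc H W)) : loc a V ≤ loc H V := by
  refine loc_le_of_alg hH.free ha fun W hW x hx => by_contra fun hc => hc ?_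
  refine h W (dvs_iff.2 ⟨fun h1 => hc (sub_cl _ _ ?_), hd.trans ?_⟩) hW x hx
  · obtain ⟨m, w, h2, h3, h4⟩ := hH.bir x
    obtain rfl : W = RZ.top k K := Subtype.ext h1
    exact ⟨m, w, h2, by rw [val_top, RZ.v_top h3], h4⟩
  · rw [← rk_eq_of_loc hW, ← one_add_one_eq_two, ← add_assoc,
      ← Matroid.eRk_insert_eq_add_one ⟨mem_univ x, hc⟩]
    exact add_le_add_left ((rm W).eRk_mono (subset_univ _)) 1

theorem liveStmt : Bnd.LiveStmt := fun K _ _ _ H a V hH ha hd h =>
  loc_le_of_dvs hH ha (by rw [← dim_adj, Geo.dm_eq, ← hd]; rfl) fun W h1 h2 x hx =>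
    mem_cl_iff_adj.2 (mem_algebraicClosure_iff.1 (h W h1 h2 (subset_adjoin _ _ ⟨x, hx, rfl⟩)))

end Crest.Agent.X262.Live3
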